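import Vale.Agent.P014T.Gx.Wlx

/-! # P014T, exact Gross-Zagier: the forms of weight `3/2` at `δ = 1` -/

set_option linter.all false

open Complex UpperHalfPlane MeasureTheory Filter Topology CongruenceSubgroup
open scoped Real MatrixGroups ComplexConjugate NumberTheorySymbols

noncomputable section

namespace Vale.Agent.P014T.Gx

open P004N (S2 QE TE RN)
open P004Z P004Z.Lf P004Z.Gl

/-- a prime which is `1` modulo `4 N` -/
structure Ax (N e : ℕ) : Prop where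
  pr : e.Prime
  md : e ≡ 1 [MOD 4 * N]

variable {N : ℕ} [NeZero N] {e : ℕ}

theorem ex_ax (N : ℕ) [NeZero N] {M : ℕ} (hM : M ≠ 0) (S : ℕ) :
    ∃ e, Ax N e ∧ e ≡ 1 [MOD M] ∧ S < e := by
  obtain ⟨e, h1, h2, h3⟩ := Nat.exists_prime_gt_modEq_one (k := 4 * N * M) S
    (mul_ne_zero (mul_ne_zero four_ne_zero (NeZero.ne N)) hM)
  exact ⟨e, ⟨h1, h3.of_mul_right _⟩, h3.of_mul_left _, h2⟩

theorem eps_one : eps 1 = 1 := by simp [eps]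

namespace Ax

theorem m4 (h : Ax N e) : e % 4 = 1 := h.md.of_mul_right N

theorem odd (h : Ax N e) : Odd e := Nat.odd_iff.2 (by have := h.m4; omega)

theorem ok (h : Ax N e) : Ok N e :=
  ⟨h.odd, h.pr.squarefree, h.pr.one_lt, by
    have := (h.md.of_mul_left 4).gcd_eq
    rw [Nat.gcd_one_left] at this
    exact Nat.Coprime.symm this⟩

theorem eps (h : Ax N e) : eps e = eps 1 := by
  rw [eps_one, P004Z.eps, Gq.J_neg_one h.odd, if_pos h.m4]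

theorem J (h : Ax N e) : J(N | e) = 1 := by
  have := NeZero.pos N
  rw [jacobiSym.mod_right' N h.odd, h.md, Nat.mod_eq_of_lt (by omega), jacobiSym.one_right]

theorem kap (h : Ax N e) : kap N e = kap N 1 := by
  rw [Gq.kap_eq h.odd h.pr.squarefree, Gq.kap_eq odd_one squarefree_one, h.J]
  simp [Gq.e4, h.m4]

theorem In (h : Ax N e) : In N e = In N 1 := by
  funext n r
  have d : (4 * N : ℤ) ∣ 1 - e := by exact_mod_cast Nat.modEq_iff_dvd.1 h.md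
  rw [P004Z.In, P004Z.In, show (r.val : ℤ) ^ 2 + (1 : ℕ) * n = r.val ^ 2 + e * n + (1 - e) * n by
    push_cast; ring, dvd_add_left (d.mul_right n)]

theorem c2 (h : Ax N e) : (e : ZMod (2 * N)) = (1 : ℕ) :=
  (ZMod.natCast_eq_natCast_iff _ _ _).2 (h.md.of_dvd ⟨2, by ring⟩)

theorem sm (h : Ax N e) : sm N e = sm N 1 := by
  funext r s
  rw [P004Z.sm, P004Z.sm, h.kap, h.c2]

theorem tm (h : Ax N e) : tm N e = tm N 1 := by
  funext r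
  rw [P004Z.tm, P004Z.tm, (ZMod.natCast_eq_natCast_iff _ _ _).2 h.md]

theorem isS (h : Ax N e) {x : Cf N} : IsS e x ↔ IsS 1 x :=
  ⟨fun k => ⟨k.zero, h.In ▸ k.sup, k.sum, h.sm ▸ k.law⟩,
    fun k => ⟨k.zero, h.In ▸ k.sup, k.sum, h.sm ▸ k.law⟩⟩

theorem adm (h : Ax N e) {c : PP N} : Adm e c ↔ Adm 1 c :=
  ⟨fun k => ⟨k.zero, h.In ▸ k.sup, h.eps ▸ k.sym⟩, fun k => ⟨k.zero, h.In ▸ k.sup, h.eps ▸ k.sym⟩⟩

theorem harm (h : Ax N e) {a : ℤ → ZMod (2 * N) → ℂ} {x : Cf N} {c : PP N} :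
    Harm e a x c ↔ Harm 1 a x c :=
  ⟨fun k => ⟨h.isS.1 k.s, h.In ▸ k.sup, k.zero, k.pp, k.sum, h.sm ▸ k.law⟩,
    fun k => ⟨h.isS.2 k.s, h.In ▸ k.sup, k.zero, k.pp, k.sum, h.sm ▸ k.law⟩⟩

theorem wh (h : Ax N e) {c : PP N} : WH e c ↔ WH 1 c := exists_congr fun _ => h.harm

theorem jj (h : Ax N e) {l : ℕ} (o : Odd l) (c : ¬ e ∣ l) (n : ℤ) :
    J(l | e) * J(-((e : ℤ) * n) | l) = J(l | 1) * J(-(((1 : ℕ) : ℤ) * n) | l) := by
  rw [← mul_neg, jacobiSym.mul_left, jacobiSym.quadratic_reciprocity_one_mod_four h.m4 o,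
    ← mul_assoc, Gq.J_cop (h.pr.coprime_iff_not_dvd.2 c).symm]
  simp

theorem tt (h : Ax N e) {l : ℕ} (o : Odd l) (c : ¬ e ∣ l) (x : Cf N) : TT e l x = TT 1 l x := by
  funext n r
  rw [TT, TT, h.jj o c]

theorem eig (h : Ax N e) {S : ℕ} (hS : 2 * e ∣ S) {a : ℕ → ℤ} {x : Cf N} :
    Eig e S a x ↔ Eig 1 S a x := forall₃_congr fun l hl h1 => by
  rw [h.tt (hl.odd_of_ne_two fun q => h1 (q ▸ (dvd_mul_right 2 e).trans hS)) fun q =>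
    h1 ((Nat.prime_dvd_prime_iff_eq h.pr hl).1 q ▸ (dvd_mul_left e 2).trans hS)]

theorem sq (h : Ax N e) (d n : ℕ) : IsSquare (e * (e * d) * n) ↔ IsSquare (1 * d * n) := by
  rw [show e * (e * d) * n = e ^ 2 * (1 * d * n) by ring]
  refine ⟨fun ⟨m, hm⟩ => ?_, fun k => (IsSquare.sq e).mul k⟩
  obtain ⟨k, rfl⟩ : e ∣ m := by
    have : e ∣ m * m := hm ▸ (dvd_pow_self e two_ne_zero).mul_right _
    exact (h.pr.dvd_mul.1 this).elim id id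
  refine ⟨k, Nat.eq_of_mul_eq_mul_left (pow_pos h.pr.pos 2) ?_⟩
  rw [hm]
  ring

theorem off (h : Ax N e) {d : ℕ} {c : PP N} : Off e (e * d) c ↔ Off 1 d c :=
  forall₂_congr fun _ _ => not_congr (h.sq _ _)

end Ax

theorem ax0 (N : ℕ) [NeZero N] : ∃ e, Ax N e := (ex_ax N one_ne_zero 0).imp fun _ h => h.1

/-- an auxiliary prime for the Hecke operator at `l` -/
theorem ax1 {l : ℕ} (hl : l.Prime) (h1 : ¬ l ∣ 2 * N) : ∃ e, Ax N e ∧ e ≡ 1 [MOD l] ∧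
    ¬ l ∣ 2 * N * e ∧ TT (N := N) e l = TT 1 l := by
  obtain ⟨e, h, h2, h3⟩ := ex_ax N hl.ne_zero l
  exact ⟨e, h, h2, fun q => (hl.dvd_mul.1 q).elim h1 fun q =>
    h3.ne ((Nat.prime_dvd_prime_iff_eq hl h.pr).1 q), funext (h.tt (hl.odd_of_ne_two fun q =>
      h1 (q ▸ dvd_mul_right 2 N)) fun q => (Nat.le_of_dvd hl.pos q).not_gt h3)⟩

/-! ### the rows -/

theorem fin1 (N : ℕ) [NeZero N] :
    ∃ V : Submodule ℂ (Cf N), (∀ x, x ∈ V ↔ IsS 1 x) ∧ FiniteDimensional ℂ V := by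
  obtain ⟨e, h⟩ := ax0 N
  simpa only [h.isS] using g2.1 N e h.ok

theorem pets1 {x : Cf N} (hx : IsS 1 x) : (∀ n r, x n (-r) = eps 1 * x n r) ∧
    (∃ C : ℝ, ∀ r (τ : ℂ), 0 < τ.im → ‖fn x r τ‖ * τ.im ^ (3 / 4 : ℝ) ≤ C) ∧
    (∀ y : Cf N, IsS 1 y → IntegrableOn (fun τ : ℂ =>
      (∑ r, fn x r τ * conj (fn y r τ)) * (τ.im ^ (-(1 / 2) : ℝ) : ℝ)) FD) ∧
    (pet (fn x) (fn x) = 0 → x = 0) := by
  obtain ⟨e, h⟩ := ax0 N
  simpa only [h.isS, h.eps] using g2.2.1 N e h.ok x (h.isS.2 hx)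

theorem serre1 {x : Cf N} (h0 : ∀ r, x 0 r = 0) (h1 : ∀ n r, x n r ≠ 0 → In N 1 n r)
    (h2 : ∀ n r, x n (-r) = eps 1 * x n r) (h3 : ∀ c, WH 1 c → pr x c = 0) : IsS 1 x := by
  obtain ⟨e, h⟩ := ax0 N
  exact h.isS.1 (g2.2.2.1 N e h.ok x h0 (h.In ▸ h1) (h.eps ▸ h2) fun c k => h3 c (h.wh.1 k))

theorem harm1 {x : Cf N} (hx : IsS 1 x) : ∃ a c, Harm 1 a x c := by
  obtain ⟨e, h⟩ := ax0 N
  simpa only [h.harm] using g2.2.2.2.1 N e h.ok x (h.isS.2 hx)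

theorem pair1 {a : ℤ → ZMod (2 * N) → ℂ} {x : Cf N} {c : PP N} (k : Harm 1 a x c) :
    Adm 1 c ∧ ∀ y, IsS 1 y → pr y c = pet (fn y) (fn x) := by
  obtain ⟨e, h⟩ := ax0 N
  simpa only [h.isS, h.adm] using g2.2.2.2.2.1 N e h.ok a x c (h.harm.2 k)

theorem exh1 {c : PP N} (k : Adm 1 c) : ∃ a x, Harm 1 a x c := by
  obtain ⟨e, h⟩ := ax0 N
  simpa only [h.harm] using g2.2.2.2.2.2 N e h.ok c (h.adm.2 k)

theorem hecke1 {l : ℕ} (hl : l.Prime) (h1 : ¬ l ∣ 2 * N) {x : Cf N} (hx : IsS 1 x) :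
    IsS 1 (TT 1 l x) := by
  obtain ⟨e, h, -, h2, h3⟩ := ax1 hl h1
  exact h3 ▸ h.isS.1 (hecke N e l h.ok hl h2 x (h.isS.2 hx))

theorem self1 {l : ℕ} (hl : l.Prime) (h1 : ¬ l ∣ 2 * N) {x y : Cf N} (hx : IsS 1 x)
    (hy : IsS 1 y) : B (TT 1 l x) y = B x (TT 1 l y) := by
  obtain ⟨e, h, -, h2, h3⟩ := ax1 hl h1
  exact h3 ▸ self g2.2.1 N e l h.ok hl h2 x y (h.isS.2 hx) (h.isS.2 hy)

theorem lemv1 {p : ℕ} (hp : p.Prime) (h1 : ¬ p ∣ 2 * N) {x : Cf N} (hx : IsS 1 x)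
    (hv : ∀ (n : ℕ) r, J(-(((1 : ℕ) : ℤ) * n) | p) = 1 → x n r = 0) :
    ∃ η : ℂ, (η = 1 ∨ η = -1) ∧ TT 1 p x = (η * (p + 1)) • x := by
  obtain ⟨e, h, h0, h2, h3⟩ := ax1 hp h1
  refine h3 ▸ lemv N e p h.ok hp h2 x (h.isS.2 hx) fun n r q => hv n r ?_
  rw [← q]
  refine Hd.J_congr ?_
  rw [show -(((1 : ℕ) : ℤ) * n) - -((e : ℤ) * n) = (e - (1 : ℕ)) * n by ring]
  exact (Nat.modEq_iff_dvd.1 h0.symm).mul_right _

/-! ### the lemmas of the glue -/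

theorem B_add1 {x y z : Cf N} (hx : IsS 1 x) (hy : IsS 1 y) (hz : IsS 1 z) :
    B (x + y) z = B x z + B y z := by
  obtain ⟨e, h⟩ := ax0 N
  exact B_add g2.2.1 h.ok (h.isS.2 hx) (h.isS.2 hy) (h.isS.2 hz)

theorem eq_of_B1 (k : ℤ) {x x' : Cf N} (hx : IsS 1 x) (hx' : IsS 1 x')
    (q : ∀ y, IsS 1 y → B y x' = k * B y x) : x' = (k : ℂ) • x := by
  obtain ⟨e, h⟩ := ax0 N
  exact Wl.eq_of_B g2.2.1 h.ok k (h.isS.2 hx) (h.isS.2 hx') fun y hy => q y (h.isS.1 hy)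

theorem B_tt1 {S : ℕ} {a : ℕ → ℤ} {x y : Cf N} (hx : IsS 1 x) (he : Eig 1 S a x) (hy : IsS 1 y)
    {l : ℕ} (hl : l.Prime) (h1 : ¬ l ∣ 2 * N) (h2 : ¬ l ∣ S) :
    B (TT 1 l y) x = a l * B y x := by
  rw [self1 hl h1 hy hx, he l hl h2, B_conj, B_smul, B_conj y x]
  simp

theorem orth1 {S : ℕ} {a : ℕ → ℤ} {x y : Cf N} (hx : IsS 1 x) (he : Eig 1 S a x) (hy : IsS 1 y)
    {p : ℕ} (hp : p.Prime) (h1 : ¬ p ∣ 2 * N) (h2 : ¬ p ∣ S)
    (ht : a p ≠ p + 1 ∧ a p ≠ -(p + 1))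
    (hv : ∀ (n : ℕ) r, J(-(((1 : ℕ) : ℤ) * n) | p) = 1 → y n r = 0) : B y x = 0 := by
  obtain ⟨η, hη, e⟩ := lemv1 hp h1 hy hv
  have h2 := B_tt1 hx he hy hp h1 h2
  rw [e, B_smul] at h2
  by_contra h0
  have h3 := mul_right_cancel₀ h0 h2
  rcases hη with rfl | rfl
  · apply ht.1
    have : ((a p : ℤ) : ℂ) = ((p + 1 : ℤ) : ℂ) := by push_cast; rw [← h3]; ring
    exact_mod_cast this
  · apply ht.2
    have : ((a p : ℤ) : ℂ) = ((-(p + 1) : ℤ) : ℂ) := by push_cast; rw [← h3]; ring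
    exact_mod_cast this

theorem isS_zero : IsS 1 (0 : Cf N) :=
  ⟨by simp, by simp, by simp [summable_zero], by simp [fn]⟩

theorem serre_off1 {d : ℕ} (u : Cf N) (q : ∀ c, WH 1 c → Off 1 d c → pr u c = 0) :
    ∃ y, IsS 1 y ∧ (∀ c, Adm 1 c → Off 1 d c → pr y c = pr u c) ∧
      ∀ n r, ¬ IsSquare (1 * d * n) → u n r = 0 → u n (-r) = 0 → y n r = 0 := by
  obtain ⟨e, h⟩ := ax0 N
  simpa only [h.isS, h.adm, h.off, h.sq] using serre_off g2.2.2.1 g2.2.2.2.2.1 h.ok (δ' := e * d)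
    ⟨0, h.isS.2 isS_zero, by simp, by simp, by simp, by simp [summable_zero], by simp [hf_zero]⟩
    u fun c k o => q c (h.wh.1 k) (h.off.1 o)

/-! ### the lifts -/

/-- the modules of `1` and `d` are dual -/
structure Du1 (N : ℕ) [NeZero N] (d : ℕ) (ρ : ZMod (2 * N)) : Prop where
  ok : Ok N d
  sq : (4 * N : ℤ) ∣ (ρ.val : ℤ) ^ 2 + d
  J : J(N | d) = 1

variable {d : ℕ} {ρ : ZMod (2 * N)} {G : ℍ → ℂ} {a : ℕ → ℤ}

theorem Du1.m4 (h : Du1 N d ρ) : d % 4 = 3 := by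
  obtain ⟨k, hk⟩ := (dvd_mul_right (4 : ℤ) N).trans h.sq
  obtain ⟨m, hm⟩ := h.ok.odd
  rcases Int.even_or_odd' (ρ.val : ℤ) with ⟨j, e | e⟩ <;> rw [e] at hk
  · have : (d : ℤ) = 4 * (k - j ^ 2) := by linear_combination hk
    omega
  · have : (d : ℤ) + 1 = 4 * (k - j ^ 2 - j) := by linear_combination hk
    omega

theorem Du1.cast (h : Du1 N d ρ) : (d : ZMod (2 * N)) = ρ * -ρ := by
  have := (ZMod.intCast_zmod_eq_zero_iff_dvd _ (2 * N)).2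
    (Dvd.dvd.trans ⟨2, by push_cast; ring⟩ h.sq)
  simp only [Int.cast_add, Int.cast_pow, Int.cast_natCast, ZMod.natCast_zmod_val] at this
  linear_combination this

theorem Du1.un (h : Du1 N d ρ) : IsUnit ρ :=
  isUnit_of_mul_isUnit_left (h.cast ▸ (ZMod.isUnit_iff_coprime _ _).2 (Du.cop2 h.ok))

theorem Du1.inv (h : Du1 N d ρ) : ρ⁻¹ * d = -ρ := by
  rw [h.cast, ← mul_assoc, ZMod.inv_mul_of_unit _ h.un, one_mul]

theorem Du1.eps (h : Du1 N d ρ) : eps d = -1 := by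
  rw [P004Z.eps, Gq.J_neg_one h.ok.odd, if_neg (by have := h.m4; omega)]

theorem Du1.gs (h : Du1 N d ρ) : gs d = Complex.I * (√(d : ℝ) : ℝ) := by
  rw [Gq.gs_val h.ok.odd h.ok.sq, Gq.e4, if_neg (by have := h.m4; omega)]

theorem Du1.dual (h : Du1 N d ρ) (k : Ax N e) : Dual e d ρ := by
  refine ⟨k.ok, h.ok, h.un, ?_, ?_⟩
  · have q : (4 * N : ℤ) ∣ e - 1 := by exact_mod_cast Nat.modEq_iff_dvd.1 k.md.symm
    refine (h.sq.add (q.mul_left ((ρ.val : ℤ) ^ 2))).trans (dvd_of_eq ?_)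
    ring
  · have e2 : ((√(2 * N : ℝ) : ℝ) : ℂ) ^ 2 = 2 * N := by
      rw [← ofReal_pow, Real.sq_sqrt (by positivity)]; push_cast; rfl
    have e3 : (2 * N : ℂ) ≠ 0 := mul_ne_zero two_ne_zero (Nat.cast_ne_zero.2 (NeZero.ne N))
    rw [Gq.kap_eq k.odd k.pr.squarefree, Gq.kap_eq h.ok.odd h.ok.sq, mul_assoc, div_mul_div_comm,
      ← pow_two, e2, mul_div_cancel₀ _ e3, k.J, h.J]
    simp [Gq.e4, k.m4, h.m4]

theorem Du1.mt (h : Du1 N d ρ) (k : Ax N e) : Mt N e d := fun l hl h1 => by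
  have o : Odd l := hl.odd_of_ne_two fun q =>
    h1 (q ▸ ((dvd_mul_right 2 N).mul_right e).mul_right d)
  rw [k.jj o fun q => h1 ((Nat.prime_dvd_prime_iff_eq k.pr hl).1 q ▸
    (dvd_mul_left e _).mul_right d), ← Gq.J_flip h.m4 o]
  simp

theorem Ax.cS (k : Ax N e) : cS N e d = cS N 1 d := by rw [Gx.cS, Gx.cS, k.eps]

/-- the value of the constant -/
theorem Du1.cS (h : Du1 N d ρ) : cS N 1 d = 4 * N * (√(d : ℝ) : ℝ) := by
  rw [Gx.cS, h.gs, h.eps, eps_one]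
  push_cast
  linear_combination -4 * N * (√(d : ℝ) : ℝ) * I_sq

theorem shix1 (h : Du1 N d ρ) {x : Cf N} (hx : IsS 1 x) :
    S2 N (shi d ρ x) ∧ QE (shi d ρ x) fun j => cS N 1 d * shc d ρ x j := by
  obtain ⟨e, k⟩ := ax0 N
  exact k.cS (d := d) ▸ shix (h.dual k) (k.isS.2 hx)

theorem eigx1 (h : Du1 N d ρ) (hG : RN N G a) {S : ℕ} (hS : S ≠ 0) {y : Cf N} (hy : IsS 1 y)
    (he : Eig 1 S a y) : shi d ρ y = (cS N 1 d * y d ρ) • G := by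
  obtain ⟨e, k⟩ := ax0 N
  have := k.pr.pos
  rw [eigx (h.dual k) (h.mt k) hG (S := S * (2 * e)) (by positivity) (k.isS.2 hy)
    ((k.eig (dvd_mul_left _ _)).2 fun l hl q => he l hl fun q' => q (q'.mul_right _)), k.cS,
    h.inv, (pets1 hy).1, eps_one, Int.cast_one, one_mul]

theorem sn_s1 (h : Du1 N d ρ) (hG : S2 N G) : IsS 1 (sn d ρ G) := by
  obtain ⟨e, k⟩ := ax0 N
  exact k.isS.1 (sn_s (h.dual k) hG)

theorem sn_adj1 (h : Du1 N d ρ) (hG : S2 N G) {y : Cf N} (hy : IsS 1 y) :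
    B y (sn d ρ G) = pet2 N (shi d ρ y) G := by
  obtain ⟨e, k⟩ := ax0 N
  exact (ws_row N e d ρ G (h.dual k) hG).2 y (k.isS.2 hy)

theorem sn_eig1 (h : Du1 N d ρ) (hG : RN N G a) : Eig 1 (2 * N * d) a (sn d ρ G) := by
  intro l hl h1
  obtain ⟨e, k, -, h2, h3⟩ := ax1 hl fun q => h1 (q.mul_right d)
  exact h3 ▸ sn_eig (h.dual k) (h.mt k) hG l hl fun q =>
    (hl.dvd_mul.1 q).elim h2 fun q => h1 (q.mul_left _)

theorem sn_B1 (h : Du1 N d ρ) (hG : RN N G a) {S : ℕ} (hS : S ≠ 0) {y : Cf N} (hy : IsS 1 y)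
    (he : Eig 1 S a y) : B y (sn d ρ G) = cS N 1 d * y d ρ * pet2 N G G := by
  rw [sn_adj1 h hG.s2 hy, eigx1 h hG hS hy he]
  simpa using Wl.pet2_smul N (cS N 1 d * y d ρ) 1 G G

/-- the coefficient of the Shintani lift -/
theorem sn_co1 (h : Du1 N d ρ) (hG : S2 N G) (q : QE G fun n => a n) :
    sn d ρ G d ρ = (√(N : ℝ) : ℝ) * d * ∫ y in Set.Ioi (0 : ℝ), tw a d (Complex.I * y) := by
  obtain ⟨e, k⟩ := ax0 N
  have t := sn_co (h.dual k) hG q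
  have s : ((√(d : ℝ) : ℝ) : ℂ) ^ 2 = d := by
    rw [← ofReal_pow, Real.sq_sqrt (by positivity)]; rfl
  rw [h.inv, (pets1 (sn_s1 h hG)).1, eps_one, Int.cast_one, one_mul, h.gs, h.eps, Nat.cast_mul,
    Real.sqrt_mul (by positivity)] at t
  rw [t]
  congr 1
  push_cast
  linear_combination (√(N : ℝ) : ℝ) * s - (√(N : ℝ) : ℝ) * (√(d : ℝ) : ℝ) ^ 2 * I_sq

/-- **the end of the exact glue** -/
theorem keyx1 (h : Du1 N d ρ) (hG : RN N G a) {S : ℕ} (hS : S ≠ 0) {x : Cf N} (hx : IsS 1 x)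
    (he : Eig 1 S a x) {t : ℂ}
    (q : ∀ y, IsS 1 y → Eig 1 (S * (2 * N * d)) a y → B y x = t * y d ρ) :
    x = conj (t / (cS N 1 d * pet2 N G G)) • sn d ρ G := by
  have := hG.pos
  have := h.ok.one
  have hs := sn_s1 h hG.s2
  set k := conj (t / (cS N 1 d * pet2 N G G)) with hk
  have hz := Wl.isS_comb (-k) hs hx
  have ez : Eig 1 (S * (2 * N * d)) a ((-k) • sn d ρ G + x) := fun l hl h1 => by
    funext n r
    have h2 := congrFun (congrFun (he l hl fun e => h1 (e.mul_right _)) n) r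
    have h3 := congrFun (congrFun (sn_eig1 h hG l hl fun e => h1 (e.mul_left _)) n) r
    simp only [TT, Pi.add_apply, Pi.smul_apply, smul_eq_mul] at h2 h3 ⊢
    split_ifs at h2 h3 ⊢ <;> linear_combination h2 - k * h3
  have h1 : B ((-k) • sn d ρ G + x) ((-k) • sn d ρ G + x) = 0 := by
    obtain ⟨e, w⟩ := ax0 N
    have n := w.cS (d := d) ▸ cS_ne (h.dual w)
    have n' := pet2_ne hG
    rw [B_add1 (Wl.isS_smul _ hs) hx hz, B_smul, B_conj _ x, q _ hz ez,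
      B_conj _ (sn d ρ G), sn_B1 h hG (by positivity) hz ez, hk, ← map_neg, ← map_mul,
      ← map_add, map_eq_zero]
    field_simp
    ring
  have h2 := (pets1 hz).2.2.2 h1
  rw [_root_.neg_smul, neg_add_eq_zero] at h2
  exact h2.symm

end Vale.Agent.P014T.Gx
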