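import Vale.Agent.P014T.Gx.One
import Vale.Agent.P004Z.Gl.Glue

/-! # P014T, exact Gross-Zagier: the linear algebra of the glue at `δ = 1` -/

set_option linter.all false

open Complex UpperHalfPlane MeasureTheory Filter Topology CongruenceSubgroup
open scoped Real MatrixGroups ComplexConjugate NumberTheorySymbols

noncomputable section

namespace Vale.Agent.P014T.Gx

open P004N (S2 QE TE RN)
open P004Z P004Z.Lf P004Z.Gl

variable {N : ℕ} [NeZero N] {d S : ℕ} {ρ : ZMod (2 * N)} {G : ℍ → ℂ} {a : ℕ → ℤ}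

/-- the Shimura lift commutes with `T_l`, also for `l ∣ d` -/
theorem sht1 (h : Du1 N d ρ) {l : ℕ} (hl : l.Prime) (h1 : ¬ l ∣ 2 * N) (x : Cf N) :
    shc d ρ (TT 1 l x) = Tc l (shc d ρ x) := by
  funext j
  have hco : l.Coprime (2 * N) := hl.coprime_iff_not_dvd.2 h1
  have h2 := Gq.J_flip h.m4 (hl.odd_of_ne_two fun q => h1 (q ▸ dvd_mul_right 2 N))
  have : NeZero l := ⟨hl.ne_zero⟩
  have e : ∀ y : Cf N, shc d ρ y = fun j => ∑ i ∈ j.divisors, (J((j / i : ℕ) | d) : ℂ) *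
      y (d * i ^ 2) (ρ⁻¹ * d * i) := fun y => funext fun j =>
    Nat.sum_divisorsAntidiagonal fun a b => (J(b | d) : ℂ) * y (d * a ^ 2) (ρ⁻¹ * d * a)
  rw [e, e, ← Wl.conv hl (fun n => (J(n | d) : ℂ)) (fun i => x (d * i ^ 2) (ρ⁻¹ * d * i))
    (fun a b => by push_cast [jacobiSym.mul_left]; rfl)]
  refine Finset.sum_congr rfl fun i _ => ?_
  congr 1
  rw [TT]
  congr 1
  · congr 1
    · congr 1
      · ring
      · push_cast
        ring
    · have e1 : J(-(((1 : ℕ) : ℤ) * (d * i ^ 2 : ℕ)) | l) = J(-(d : ℤ) | l) * J(i | l) ^ 2 := by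
        rw [← jacobiSym.pow_left, ← jacobiSym.mul_left]
        congr 1
        push_cast
        ring
      rw [e1, jacobiSym.one_right, one_mul, h2]
      split_ifs with h
      · rw [(jacobiSym.eq_zero_iff_not_coprime (a := i)).2]
        · simp
        · rw [Int.gcd_natCast_natCast]
          exact fun e => hl.coprime_iff_not_dvd.1 (Nat.Coprime.symm e) h
      · rw [jacobiSym.sq_one, mul_one]
        rw [Int.gcd_natCast_natCast]
        exact (hl.coprime_iff_not_dvd.2 h).symm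
  · by_cases k : l ∣ i
    · obtain ⟨k, rfl⟩ := k
      rw [if_pos ⟨d * k ^ 2, by ring⟩, if_pos (dvd_mul_right _ _),
        Nat.mul_div_cancel_left _ hl.pos, show d * (l * k) ^ 2 = l ^ 2 * (d * k ^ 2) by ring,
        Nat.mul_div_cancel_left _ (pow_pos hl.pos 2)]
      congr 2
      push_cast
      linear_combination (ρ⁻¹ * d * k) * ZMod.coe_mul_inv_eq_one l hco
    · rw [if_neg k, if_neg]
      intro e
      exact hl.not_isUnit (h.ok.sq l (pow_two l ▸
        ((hl.coprime_iff_not_dvd.2 k).pow 2 2).dvd_of_dvd_mul_right e))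

/-- the Shintani lift of a newform is an eigenform away from `2 N` -/
theorem sn_eig2 (h : Du1 N d ρ) (hG : RN N G a) : Eig 1 (2 * N) a (sn d ρ G) := by
  have hs := sn_s1 h hG.s2
  obtain ⟨-, -, sa⟩ := pet2_all N hG.pos
  intro l hl h1
  have h3 : ¬ l ∣ N := fun e => h1 (e.mul_left _)
  refine eq_of_B1 (a l) hs (hecke1 hl h1 hs) fun y hy => ?_
  have hy' := hecke1 hl h1 hy
  rw [← self1 hl h1 hy hs, sn_adj1 h hG.s2 hy', sn_adj1 h hG.s2 hy]
  have q1 := (shix1 h hy').2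
  rw [sht1 h hl h1] at q1
  have q2 : QE ((a l : ℂ) • G) (Tc l fun n => (a n : ℂ)) := by
    have : (Tc l fun n => (a n : ℂ)) = (a l : ℂ) • fun n => (a n : ℂ) :=
      funext fun n => hG.te l hl h3 n
    rw [this]
    exact P004N.H461.QE.smul hG.qe _
  have q3 : (fun j => cS N 1 d * Tc l (shc d ρ y) j) =
      Tc l fun j => cS N 1 d * shc d ρ y j := funext fun n => by
    simp only [Tc]
    split_ifs <;> ring
  rw [sa l _ G _ _ _ _ hl h3 (shix1 h hy).1 hG.s2 (shix1 h hy).2 hG.qe (q3 ▸ q1) q2]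
  simpa using Wl.pet2_smul N 1 (a l) (shi d ρ y) G

theorem eig_comb (k : ℂ) {x y : Cf N} (hx : Eig 1 S a x) (hy : Eig 1 S a y) :
    Eig 1 S a (k • x + y) := fun l hl h1 => by
  funext n r
  have h2 := congrFun (congrFun (hx l hl h1) n) r
  have h3 := congrFun (congrFun (hy l hl h1) n) r
  simp only [TT, Pi.add_apply, Pi.smul_apply, smul_eq_mul] at h2 h3 ⊢
  split_ifs at h2 h3 ⊢ <;> linear_combination h3 + k * h2

/-- **the end of the exact glue** -/
theorem keyx2 (h : Du1 N d ρ) (hG : RN N G a) (hS : S ≠ 0) (h2 : 2 * N ∣ S) {x : Cf N}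
    (hx : IsS 1 x) (he : Eig 1 S a x) {t : ℂ}
    (q : ∀ y, IsS 1 y → Eig 1 S a y → B y x = t * y d ρ) :
    x = conj (t / (cS N 1 d * pet2 N G G)) • sn d ρ G := by
  have hs := sn_s1 h hG.s2
  set k := conj (t / (cS N 1 d * pet2 N G G)) with hk
  have hz := Wl.isS_comb (-k) hs hx
  have ez := eig_comb (-k) (fun l hl q => sn_eig2 h hG l hl fun e => q (e.trans h2)) he
  have h1 : B ((-k) • sn d ρ G + x) ((-k) • sn d ρ G + x) = 0 := by
    obtain ⟨e, w⟩ := ax0 N
    have n := w.cS (d := d) ▸ cS_ne (h.dual w)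
    have n' := pet2_ne hG
    rw [B_add1 (Wl.isS_smul _ hs) hx hz, B_smul, B_conj _ x, q _ hz ez,
      B_conj _ (sn d ρ G), sn_B1 h hG hS hz ez, hk, ← map_neg, ← map_mul,
      ← map_add, map_eq_zero]
    field_simp
    ring
  have h2 := (pets1 hz).2.2.2 h1
  rw [_root_.neg_smul, neg_add_eq_zero] at h2
  exact h2.symm

/-- the action of the free algebra -/
abbrev act1 (S : ℕ) (P : FreeAlgebra ℤ (PA S)) : Module.End ℂ (PP N) :=
  FreeAlgebra.lift ℤ (fun l : PA S => Tt 1 l.1) P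

theorem mm_act1 (h2 : 2 * N ∣ S) (P : FreeAlgebra ℤ (PA S)) :
    ∀ c ∈ MM N 1 d, act1 S P c ∈ MM N 1 d := by
  induction P with
  | grade0 k =>
    intro c hc
    rw [act1, AlgHom.commutes, eq_intCast, Module.End.intCast_apply]
    exact zsmul_mem hc k
  | grade1 l =>
    intro c hc
    rw [act1, FreeAlgebra.lift_ι_apply]
    exact mm_tt l.2.1 (fun q => l.2.2 ((mul_one (2 * N) ▸ q).trans h2)) hc
  | mul P Q h h' =>
    intro c hc
    rw [act1, map_mul]
    exact h _ (h' c hc)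
  | add P Q h h' =>
    intro c hc
    rw [act1, map_add]
    exact add_mem (h c hc) (h' c hc)

theorem pr_act1 (h2 : 2 * N ∣ S) {x : Cf N} (hx : IsS 1 x) (he : Eig 1 S a x)
    (P : FreeAlgebra ℤ (PA S)) : ∀ (c : PP N) (μ : ℂ), (∀ y, IsS 1 y → pr y c = μ * B y x) →
      ∀ y, IsS 1 y → pr y (act1 S P c) =
        (FreeAlgebra.lift ℤ (fun l : PA S => a l.1) P : ℤ) * μ * B y x := by
  induction P with
  | grade0 k =>
    intro c μ h y hy
    rw [act1, AlgHom.commutes, AlgHom.commutes, eq_intCast, eq_intCast, Module.End.intCast_apply,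
      ← Int.cast_smul_eq_zsmul ℂ, pr_smul, h y hy, mul_assoc, Int.cast_id]
  | grade1 l =>
    intro c μ h y hy
    have h1 : ¬ l.1 ∣ 2 * N := fun q => l.2.2 (q.trans h2)
    rw [act1, FreeAlgebra.lift_ι_apply, FreeAlgebra.lift_ι_apply, pr_tt,
      h _ (hecke1 l.2.1 h1 hy), B_tt1 hx he hy l.2.1 h1 l.2.2]
    ring
  | mul P Q h h' =>
    intro c μ e y hy
    rw [act1, map_mul, map_mul]
    refine (h _ _ (h' c μ e) y hy).trans ?_
    push_cast
    ring
  | add P Q h h' =>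
    intro c μ e y hy
    rw [act1, map_add, map_add, LinearMap.add_apply, pr_add, h c μ e y hy, h' c μ e y hy]
    push_cast
    ring

/-- the pairing with an eigen array -/
theorem pr_eig {x : Cf N} (he : Eig 1 S a x) (P : FreeAlgebra ℤ (PA S)) : ∀ c : PP N,
    pr x (act1 S P c) = (FreeAlgebra.lift ℤ (fun l : PA S => a l.1) P : ℤ) * pr x c := by
  induction P with
  | grade0 k =>
    intro c
    rw [act1, AlgHom.commutes, AlgHom.commutes, eq_intCast, eq_intCast, Module.End.intCast_apply,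
      ← Int.cast_smul_eq_zsmul ℂ, pr_smul, Int.cast_id]
  | grade1 l =>
    intro c
    rw [act1, FreeAlgebra.lift_ι_apply, FreeAlgebra.lift_ι_apply, pr_tt, he _ l.2.1 l.2.2, smul_pr]
  | mul P Q h h' =>
    intro c
    rw [act1, map_mul, map_mul]
    refine (h _).trans ?_
    rw [h' c]
    push_cast
    ring
  | add P Q h h' =>
    intro c
    rw [act1, map_add, map_add, LinearMap.add_apply, pr_add, h c, h' c]
    push_cast
    ring

theorem Ax.mm {e : ℕ} (h : Ax N e) : MM N e (e * d) = MM N 1 d := by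
  have e1 : bb (N := N) e = bb 1 := funext fun i => by rw [bb, bb, h.eps]
  have e2 : Ix N e (e * d) = Ix N 1 d := Set.ext fun i => by
    simp only [Ix, Set.mem_setOf_eq, h.In, h.sq]
  rw [MM, MM, e1, e2]

/-- forms supported on the squares and on the non split indices are orthogonal to eigenforms -/
theorem tr1 (hG : RN N G a) (sq : Squarefree d) (h2 : 2 * N ∣ S) {x y : Cf N} (hx : IsS 1 x)
    (he : Eig 1 S a x) (hy : IsS 1 y) {p : ℕ} (hp : p.Prime) (h1 : ¬ p ∣ S)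
    (h3 : J(-(d : ℤ) | p) ≠ 1) (h : ∀ (n : ℕ) r, ¬ IsSquare (1 * d * n) →
      J(-(((1 : ℕ) : ℤ) * n) | p) = 1 → y n r = 0) : B y x = 0 :=
  orth1 hx he hy hp (fun q => h1 (q.trans h2)) h1
    (triv N G a hG p hp fun e => h1 ((e.mul_left 2).trans h2))
    fun n r e => h n r (fun q => not_one hp sq hp.not_dvd_one h3 q e) e

/-- inert primes -/
theorem inert (h : Du1 N d ρ) (hS : S ≠ 0) : ∃ p : ℕ, p.Prime ∧ ¬ p ∣ S ∧ J(-(d : ℤ) | p) = -1 := by
  have h0 := h.ok.sq.ne_zero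
  obtain ⟨a, ha⟩ := Gq.ex_neg h.ok.odd h.ok.sq h.ok.one
  obtain ⟨p, h1, h2, h3⟩ := Nat.forall_exists_prime_gt_and_modEq (max S 2) h0
    (Gq.cop_J (n := a * a) h0 (by
      rw [Nat.cast_mul, jacobiSym.mul_left, ha]; rfl)).coprime_mul_left
  refine ⟨p, h2, fun d => (Nat.le_of_dvd (Nat.pos_of_ne_zero hS) d).not_gt (by omega), ?_⟩
  rw [Gq.J_flip h.m4 (h2.odd_of_ne_two (by omega)), Hd.J_congr (Nat.modEq_iff_dvd.1 h3.symm), ha]

/-- a principal part off the squares with a given eigenform as shadow -/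
theorem ex_c1 (h : Du1 N d ρ) (hG : RN N G a) (hS : S ≠ 0) (h2 : 2 * N ∣ S) {x : Cf N}
    (hx : IsS 1 x) (he : Eig 1 S a x) : ∃ c ∈ MM N 1 d, ∀ y, IsS 1 y → pr y c = B y x := by
  obtain ⟨e, k⟩ := ax0 N
  obtain ⟨p, hp, h1, h3⟩ := inert h hS
  simpa only [k.mm, k.isS] using ex_c (δ' := e * d) g2.1 g2.2.1 k.ok (k.isS.2 hx) fun y hy q =>
    tr1 hG h.ok.sq h2 hx he (k.isS.1 hy) hp h1 (by rw [h3]; decide)
      fun n r s _ => q n r fun t => s ((k.sq _ _).1 t)

/-- **the finite parts vanish** -/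
theorem fin0 (hG : RN N G a) (sq : Squarefree d) (h2 : 2 * N ∣ S)
    (sp : ∀ p : ℕ, p.Prime → p ∣ S → Spl d p) {κ : ℕ → ℕ → ZMod (2 * N) → ℚ} (hκ : Lgs 1 d κ)
    (h0 : ∀ c, WH 1 c → Off 1 d c → pr (lg κ) c = 0) {x : Cf N} (hx : IsS 1 x)
    (he : Eig 1 S a x) {c : PP N} (hc : c ∈ MM N 1 d) {μ : ℂ}
    (hp : ∀ y, IsS 1 y → pr y c = μ * B y x) :
    (∀ p : ℕ, p.Prime → pr (fun n r => (κ p n r : ℂ)) c = 0) ∧ pr (lg κ) c = 0 := by
  have A : ∀ p : ℕ, p.Prime → pr (fun n r => (κ p n r : ℂ)) c = 0 := fun p pp => by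
    by_cases s : Spl d p
    · simp [pr, Finsupp.sum, hκ.spl p _ _ s]
    obtain ⟨y, hy, y1, y2⟩ := serre_off1 (d := d) (fun n r => (κ p n r : ℂ))
      fun c hc ho => pr_lg_zero hκ (WH.int hc) (h0 c hc ho) p
    rw [← y1 _ (mm_adm hc) (mm_off hc), hp y hy, tr1 hG sq h2 hx he hy pp (fun q => s (sp p pp q))
      (fun q => s (.inr q)), mul_zero]
    intro n r e e'
    exact y2 n r e (by rw [hκ.van p n r e', Rat.cast_zero])
      (by rw [hκ.van p n _ e', Rat.cast_zero])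
  obtain ⟨T, hT, -, e⟩ := pr_lg hκ c
  exact ⟨A, e.trans (Finset.sum_eq_zero fun p hp => mul_eq_zero_of_left (A p (hT p hp)) _)⟩

end Vale.Agent.P014T.Gx
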