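import Vale.Agent.P004Z.Lf.Wc

/-! # P014T, exact Gross-Zagier: the coefficient of the Shintani lift at a square -/

set_option linter.all false

open UpperHalfPlane hiding I
open Complex MeasureTheory Filter Set CongruenceSubgroup
open scoped MatrixGroups Modular Real ComplexConjugate Topology ModularForm NumberTheorySymbols

noncomputable section

namespace Vale.Agent.P014T.Gx

open P004N (S2 QE RN)
open P004Z P004Z.Lf P004Z.Lf.Wx

/-- the integral along a ray does not depend on the ray -/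
theorem rayx {f : ℂ → ℂ} (h : DifferentiableOn ℂ f {z | 0 < z.im}) {C : ℝ}
    (hb : ∀ y t : ℝ, 0 < y → ‖f (y * (t + I))‖ ≤ C * (1 + t ^ 2) * (1 + y ^ 2)⁻¹) (t : ℝ) :
    (t + I) * ∫ y in Ioi (0 : ℝ), f (y * (t + I)) = I * ∫ y in Ioi (0 : ℝ), f (I * y) := by
  obtain ⟨P, hP⟩ := prim h
  have C0 : 0 ≤ C := by
    have := (norm_nonneg _).trans (hb 1 0 one_pos)
    norm_num at this
    exact this
  have i : ∀ t : ℝ, IntegrableOn (fun y : ℝ => f (y * (t + I))) (Ioi 0) := fun t =>
    (integrable_inv_one_add_sq.const_mul (C * (1 + t ^ 2))).integrableOn.mono'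
      ((h.continuousOn.comp (f := fun y : ℝ => (y : ℂ) * (t + I)) (by fun_prop)
        fun y hy => ray_im hy t).aestronglyMeasurable measurableSet_Ioi)
      (ae_restrict_of_forall_mem measurableSet_Ioi fun y hy => hb y t hy)
  have d : ∀ (t y : ℝ), 0 < y →
      HasDerivAt (fun y : ℝ => P (y * (t + I))) (f (y * (t + I)) * (t + I)) y := fun t y hy => by
    simpa using ((hP _ (ray_im hy t)).comp (y : ℂ)
      ((hasDerivAt_id (y : ℂ)).mul_const (t + I))).comp_ofReal
  let D : ℝ → ℂ := fun y => P (y * (t + I)) - P (y * ((0 : ℝ) + I))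
  have b : ∀ y : ℝ, 0 ≤ y → ‖D y‖ ≤ C * (1 + t ^ 2) * |t| * (y * (1 + y ^ 2)⁻¹) := by
    intro y hy
    rcases hy.eq_or_lt with rfl | hy
    · simp [D]
    have := intervalIntegral.integral_eq_sub_of_hasDerivAt (a := 0) (b := t)
      (f := fun u : ℝ => P (y * (u + I))) (f' := fun u : ℝ => f (y * (u + I)) * y)
      (fun u _ => by
        simpa using ((hP _ (ray_im hy u)).comp (u : ℂ)
          (((hasDerivAt_id (u : ℂ)).add_const I).const_mul (y : ℂ))).comp_ofReal)
      (((h.continuousOn.comp_continuous (f := fun u : ℝ => (y : ℂ) * (u + I)) (by fun_prop)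
        fun u => ray_im hy u).mul continuous_const).intervalIntegrable _ _)
    simp only [D]
    rw [← this]
    refine (intervalIntegral.norm_integral_le_of_norm_le_const
      (C := C * (1 + t ^ 2) * (1 + y ^ 2)⁻¹ * y) fun u hu => ?_).trans_eq (by simp; ring)
    have a : u ^ 2 ≤ t ^ 2 := sq_le_sq.2 (by
      simpa using abs_sub_left_of_mem_uIcc (uIoc_subset_uIcc hu))
    rw [norm_mul, norm_real, Real.norm_of_nonneg hy.le]
    gcongr
    exact (hb y u hy).trans (by gcongr)
  have k : 0 ≤ C * (1 + t ^ 2) * |t| := by positivity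
  have e := integral_Ioi_of_hasDerivAt_of_tendsto (f := D) (a := 0) (m := 0)
    (f' := fun y => f (y * (t + I)) * (t + I) - f (y * ((0 : ℝ) + I)) * ((0 : ℝ) + I)) (by
      have z : D 0 = 0 := by simp [D]
      rw [ContinuousWithinAt, z]
      refine squeeze_zero_norm' (eventually_mem_nhdsWithin.mono fun y hy => b y hy) ?_
      refine tendsto_nhdsWithin_of_tendsto_nhds (Continuous.tendsto' ?_ _ _ (by simp))
      exact continuous_const.mul (continuous_id.mul (Continuous.inv₀ (by fun_prop)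
        fun y => by positivity)))
    (fun y hy => (d t y hy).sub (d 0 y hy)) (((i t).mul_const _).sub ((i 0).mul_const _)) (by
      refine squeeze_zero_norm' (a := fun y => C * (1 + t ^ 2) * |t| * y⁻¹) ?_ ?_
      · filter_upwards [eventually_gt_atTop 0] with y hy
        refine (b y hy.le).trans (mul_le_mul_of_nonneg_left ?_ k)
        rw [← div_eq_mul_inv, inv_eq_one_div, div_le_div_iff₀ (by positivity) hy]
        nlinarith
      · simpa using (tendsto_inv_atTop_zero (𝕜 := ℝ)).const_mul (C * (1 + t ^ 2) * |t|))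
  rw [integral_sub ((i t).mul_const _) ((i 0).mul_const _), integral_mul_const,
    integral_mul_const] at e
  simp only [D, ofReal_zero, zero_add, zero_mul, sub_self] at e
  simp only [mul_comm _ I] at e
  linear_combination e

/-- **the coefficient at a square is a sum of modular symbols** -/
theorem scx {N ν δ : ℕ} {φ : Fm → ℂ} {G : ℍ → ℂ} (hN : 0 < N) (hν : 0 < ν) (hδ : 0 < δ)
    (cop : N.Coprime δ) (hG : S2 N G) (bd : ∃ B, ∀ l, ‖φ l‖ ≤ B)
    (inv : ∀ γ ∈ Gamma0 N, ∀ l, φ (fa l γ) = φ l)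
    (sup : ∀ l, disc l = δ * δ → φ l ≠ 0 → (N : ℤ) ∣ l.1 ∧ (2 * N : ℤ) ∣ l.2.1 - δ) :
    sc N ν φ G (δ * δ) 1 = I * (√ν : ℝ) * ∫ y in Ioi (0 : ℝ),
      ∑ j : Fin δ, φ (0, δ, j) * G (ofComplex (I * y - ((j : ℤ) / δ : ℝ))) := by
  have : NeZero N := ⟨hN.ne'⟩
  have δ0 : (δ : ℂ) ≠ 0 := Nat.cast_ne_zero.2 hδ.ne'
  let ψ := cut (δ * δ) φ
  let f : Fm → ℍ → ℂ := fun l z => ψ l * gv ν 1 (pz l z) * evq l z * G z
  let F : Fin δ → ℍ → ℂ := fun j => f (0, δ, j)
  have p : Pf (δ * δ) ψ _ (gv ν 1) := pf_gv bd _ hν one_pos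
  obtain ⟨B, J1⟩ := bd
  have B0 : 0 ≤ B := (norm_nonneg _).trans (J1 0)
  have f1 : ∀ l, ∀ γ ∈ Gamma0 N, ∀ z, f (fa l γ) z = f l (γ • z) := fun l γ hγ z => by
    have a := congrFun (hG.slash γ hγ) z
    have := Hd.den_ne γ z
    rw [sl_ap] at a
    simp only [f, ψ, cut, Hd.disc_fa, inv γ hγ, Hd.pz_fa, Hd.evq_fa, ← a]
    field_simp
  have f2 : ∀ z : ℍ, ∑' γ : Gamma0 N, (∑ j, F j) (γ.1 • z) =
      2 * (Kq ψ (gv ν 1) z * G z) := by
    intro z
    obtain ⟨_, _, -, t1, b1⟩ := p.tm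
    have s := (Summable.of_norm_bounded ((ms_sum t1 z).mul_left _)
      fun l => (b1 l z).2).hasSum.mul_right (G z)
    rw [two_mul]
    refine ((twice (N := N) (δ := δ) s fun l e => ?_).prod_fiberwise fun γ => ?_).tsum_eq
    · have e1 : ψ l ≠ 0 := fun q => e (by simp [q])
      have e2 := p.sup l e1
      obtain ⟨h1, h2⟩ := sup l e2 (by simpa [ψ, cut, e2] using e1)
      obtain ⟨g, j, q⟩ := sq_ex hδ e2
      have q' : fa (0, (δ : ℤ), (j : ℤ)) g⁻¹ = l := by rw [← q, Hd.fa_inv]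
      refine ⟨(⟨g⁻¹, (cls N (0, δ, j) δ hN (by simp [disc]) ?_).2 _ (by simp) (by simp)
        (q' ▸ h1) (q' ▸ h2)⟩, j), q'⟩
      simpa [disc] using (Nat.isCoprime_iff_coprime.2 cop.symm).pow_left (m := 2)
    · simpa only [Finset.sum_apply, F, ← f1 _ _ γ.2] using hasSum_fintype
        fun j : Fin δ => f (fa (0, (δ : ℤ), (j : ℤ)) γ) z
  let b : ℝ → ℝ := fun t => gv ν 1 (δ * t)
  have F1 : ∀ (j : Fin δ) (y t : ℝ), 0 < y → F j (pt (y * t - (j : ℤ) / δ) y) =
      b t * δ * (t + I) * (y * (φ (0, δ, j) * G (pt (y * t - (j : ℤ) / δ) y))) := by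
    intro j y t hy
    have a1 : pz (0, δ, j) (pt (y * t - (j : ℤ) / δ) y) = δ * t := by
      have : (δ : ℝ) ≠ 0 := Nat.cast_ne_zero.2 hδ.ne'
      simp only [pz, coe_re, coe_im, pt_re _ hy, pt_im _ hy]
      push_cast
      field_simp
      ring
    have a2 : evq (0, δ, j) (pt (y * t - (j : ℤ) / δ) y) = δ * y * (t + I) := by
      simp only [evq, pt_ray hy]
      push_cast
      field_simp
      ring
    have a3 : ψ (0, δ, j) = φ (0, δ, j) := by simp [ψ, cut, disc, sq]
    simp only [F, f, a1, a2, a3, b]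
    ring
  have cF : ∀ j, Continuous (F j) := fun j =>
    ((continuous_const.mul (continuous_ofReal.comp ((cont_gv _ _).comp
      ((cont_pz _).comp_continuous continuous_coe fun z => z.im_pos)))).mul
      ((cont_evq _).comp continuous_coe)).mul hG.holo.continuous
  have bi : Integrable fun t : ℝ => b t * (1 + t ^ 2) ^ 2 := by
    have c : 0 < π * δ ^ 2 / ν / 2 := by positivity
    refine ((integrable_exp_neg_mul_sq c).const_mul _).mono'
      (((cont_gv _ _).comp (by fun_prop)).mul (by fun_prop)).aestronglyMeasurable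
      (Eventually.of_forall fun t => le_trans (le_of_eq ?_)
        (mul_le_mul_of_nonneg_right (pow_exp 2 c (sq_nonneg t)) (Real.exp_pos _).le))
    simp only [b, gv, Real.sqrt_one, one_mul]
    rw [Real.norm_of_nonneg (by positivity), mul_assoc ((1 + t ^ 2) ^ 2), ← Real.exp_add,
      mul_comm]
    congr 2
    ring
  have bv : (∫ t, b t) * δ = √ν := by
    have δ1 : (0 : ℝ) < δ := Nat.cast_pos.2 hδ
    have := Real.pi_pos
    rw [show b = fun t => Real.exp (-(π * δ ^ 2 / ν) * t ^ 2) from funext fun t => by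
      simp only [b, gv, Real.sqrt_one, one_mul]; congr 1; ring, integral_gaussian,
      ← Real.sqrt_sq δ1.le, ← Real.sqrt_mul' _ (sq_nonneg _), Real.sqrt_sq δ1.le]
    congr 1
    field_simp
  have R := fun j : Fin δ => ray_le hN hG hδ j
  choose C hC R using R
  have i1 : ∀ j : Fin δ, Integrable (fun q : ℝ × ℝ => F j (pt (q.1 * q.2 - (j : ℤ) / δ) q.1))
      (n1.prod volume) := fun j => by
    refine ((intg_n1.mul_prod bi).const_mul (δ * B * C j)).mono'
      ((cF j).measurable.comp (mp_ray _).measurable).aestronglyMeasurable ?_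
    filter_upwards [Measure.quasiMeasurePreserving_fst.ae n1_ae] with q hq
    have b0 : 0 ≤ b q.2 := by simp only [b, gv]; positivity
    have n : ‖(q.2 : ℂ) + I‖ ≤ 1 + q.2 ^ 2 := by
      refine abs_le_of_sq_le_sq' ?_ (by positivity) |>.2
      rw [← normSq_eq_norm_sq]
      simp [normSq_apply]
      nlinarith [sq_nonneg q.2, sq_nonneg (q.2 ^ 2)]
    have := hC j
    rw [F1 j _ _ hq]
    simp only [norm_mul, norm_real, Complex.norm_natCast,
      Real.norm_of_nonneg b0, Real.norm_of_nonneg hq.le]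
    calc _ ≤ b q.2 * δ * (1 + q.2 ^ 2) *
          (q.1 * (B * (C j * (1 + q.2 ^ 2) * (1 + q.1 ^ 2)⁻¹))) := by
          gcongr
          · exact J1 _
          · exact R j _ _ hq
      _ = _ := by ring
  have i2 : ∀ j, Integrable (F j) := fun j =>
    ((mp_ray _).integrable_comp (cF j).aestronglyMeasurable).1 (i1 j)
  let H : ℂ → ℂ := fun w => ∑ j : Fin δ, φ (0, δ, j) * G (ofComplex (w - ((j : ℤ) / δ : ℝ)))
  have H1 : ∀ (j : Fin δ) (y t : ℝ), 0 < y →
      ofComplex (y * (t + I) - ((j : ℤ) / δ : ℝ)) = pt (y * t - (j : ℤ) / δ) y := fun j y t hy => by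
    rw [← pt_ray hy, ofComplex_apply]
  have H0 := rayx (f := H) (C := ∑ j, B * C j)
    (DifferentiableOn.fun_sum fun j _ => ((UpperHalfPlane.mdifferentiable_iff.1 hG.holo).comp
      (differentiableOn_id.sub_const (((j : ℤ) / δ : ℝ) : ℂ))
      fun w hw => by simpa using hw).const_mul _)
    fun y t hy => by
      simp only [H, H1 _ _ _ hy, Finset.sum_mul]
      refine norm_sum_le_of_le _ fun j _ => ?_
      rw [norm_mul, mul_assoc B, mul_assoc B]
      exact mul_le_mul (J1 _) (R j y t hy) (norm_nonneg _) B0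
  have z0 : ∫ z, (∑ j, F j) z = I * (√ν : ℝ) * ∫ y in Ioi (0 : ℝ), H (I * y) := by
    simp only [Finset.sum_apply]
    rw [integral_finsetSum _ fun j _ => i2 j, Finset.sum_congr rfl fun j _ =>
      ((mp_ray ((j : ℤ) / δ)).map_eq ▸ integral_map (mp_ray _).measurable.aemeasurable
        ((mp_ray _).map_eq.symm ▸ (cF j).aestronglyMeasurable) :
        ∫ z, F j z = ∫ q : ℝ × ℝ, F j (pt (q.1 * q.2 - (j : ℤ) / δ) q.1) ∂n1.prod volume),
      ← integral_finsetSum _ fun j _ => i1 j,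
      integral_prod_symm _ (integrable_finsetSum _ fun j _ => i1 j),
      integral_congr_ae (g := fun t => (b t : ℂ) * (δ * (I * ∫ y in Ioi (0 : ℝ), H (I * y))))
        (Eventually.of_forall fun t => ?_), integral_mul_const, integral_complex_ofReal, ← bv]
    · push_cast
      ring
    beta_reduce
    rw [← H0 t, ← int_n1, ← mul_assoc, ← mul_assoc, ← integral_const_mul]
    refine integral_congr_ae (n1_ae.mono fun y hy => ?_)
    simp only [F1 _ _ _ hy, H, H1 _ _ _ hy, Finset.mul_sum]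
  have u := unf2 hN (integrable_finsetSum' Finset.univ fun j _ => i2 j)
  have := Subgroup.fintypeQuotientOfFiniteIndex (H := Gamma0 N)
  simp only [z0, f2, iX, integral_const_mul, finsum_eq_sum_of_fintype, ← Finset.mul_sum] at u
  rw [sc_eq, iX, finsum_eq_sum_of_fintype]
  exact mul_left_cancel₀ two_ne_zero u

/-- twisting along the imaginary axis -/
theorem tw_sum {δ : ℕ} (o : Odd δ) (q : Squarefree δ) {G : ℍ → ℂ} {a : ℕ → ℤ}
    (e : QE G fun n => a n) {y : ℝ} (hy : 0 < y) :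
    ∑ j : Fin δ, (J(j | δ) : ℂ) * G (ofComplex (I * y - ((j : ℤ) / δ : ℝ))) =
      J(-1 | δ) * gs δ * tw a δ (I * y) := by
  have m : ∀ j : Fin δ, 0 < (I * y - ((j : ℤ) / δ : ℝ)).im := fun j => by simpa using hy
  refine (hasSum_sum fun (j : Fin δ) _ => (e (ofComplex (I * y - ((j : ℤ) / δ : ℝ)))
    ).mul_left (J(j | δ) : ℂ)).tsum_eq.symm.trans ?_
  simp only [tw, ← tsum_mul_left]
  refine tsum_congr fun n => ?_
  have g := Gq.gk_eq o q (-1 * n)
  rw [Gq.gk, jacobiSym.mul_left, Finset.sum_range] at g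
  push_cast at g ⊢
  rw [show (J(-1 | δ) : ℂ) * gs δ * (a n * J(n | δ) * ee (n * (I * y))) =
    J(-1 | δ) * J(n | δ) * gs δ * (a n * ee (n * (I * y))) by ring, ← g, Finset.sum_mul]
  refine Finset.sum_congr rfl fun j _ => ?_
  have := m j
  push_cast at this
  rw [ofComplex_apply_of_im_pos this, mul_assoc _ (ee _), mul_left_comm (ee _), ← ee_add, ee]
  congr 3
  ring

/-- **the exact form of the row `WC`** (`δ = 1` is allowed) -/
theorem wcx {N δ : ℕ} {G : ℍ → ℂ} {a : ℕ → ℤ} (hN : 0 < N) (o : Odd δ) (q : Squarefree δ)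
    (cop : N.Coprime δ) (hG : S2 N G) (e : QE G fun n => a n) {ν : ℕ} (hν : 0 < ν) :
    sc N ν (fun l => ph N δ (δ : ZMod (2 * N)) l) G (δ * δ) 1 =
      I * (√ν : ℝ) * (J(-1 | δ) * gs δ) * ∫ y in Ioi (0 : ℝ), tw a δ (I * y) := by
  have : NeZero N := ⟨hN.ne'⟩
  refine (scx (φ := fun l => ph N δ (δ : ZMod (2 * N)) l) hN hν o.pos cop hG ⟨1, fun l => ?_⟩
    (fun γ hγ l => by rw [Hd.ph_fa o _ _ hγ]) fun l _ h => ?_).trans ?_
  rotate_left 2
  · rw [mul_assoc (I * _), ← integral_const_mul (J(-1 | δ) * gs δ : ℂ)]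
    refine congrArg _ (setIntegral_congr_fun measurableSet_Ioi fun y hy => ?_)
    beta_reduce
    rw [← tw_sum o q e hy]
    exact Finset.sum_congr rfl fun j _ => by simp [ph, disc, sq, gc, Hd.J_prod q]
  · simp only [ph, gc]
    split_ifs
    · rw [Int.cast_prod, norm_prod]
      refine Finset.prod_le_one (fun _ _ => norm_nonneg _) fun q _ => ?_
      split_ifs <;> rcases jacobiSym.trichotomy _ q with e | e | e <;> rw [e] <;> simp
    · simp
  · obtain ⟨h1, h2, -⟩ := Hd.ph_ne (show ph N δ (δ : ZMod (2 * N)) l ≠ 0 by simpa using h)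
    have := (ZMod.intCast_eq_intCast_iff_dvd_sub δ l.2.1 (2 * N)).1 (by simp [h2])
    exact ⟨h1, by exact_mod_cast this⟩

end Vale.Agent.P014T.Gx
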