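import Vale.Agent.P004Z.Lf.All
import Vale.Agent.P014T.Gx.Wcx

/-! # P014T, exact Gross-Zagier: the Shimura and the Shintani lift of eigenforms -/

set_option linter.all false

open Complex UpperHalfPlane MeasureTheory Filter Topology CongruenceSubgroup
open scoped Real MatrixGroups ComplexConjugate NumberTheorySymbols

noncomputable section

namespace Vale.Agent.P014T.Gx

open P004N (S2 QE TE RN)
open P004Z P004Z.Lf P004Z.Gl P004Z.Lf.Wl

/-- the constant of the Shimura lift -/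
def cS (N δ δ₁ : ℕ) : ℂ := 4 * Complex.I * N * gs δ₁ * eps δ * eps δ₁

variable {N : ℕ} [NeZero N] {δ δ₁ : ℕ} {ρ : ZMod (2 * N)} {G : ℍ → ℂ} {a : ℕ → ℤ}

theorem ws_row : WS := Lf.wb Lf.wa phi ths fta g2.2.1

theorem cS_ne (h : Dual δ δ₁ ρ) : cS N δ δ₁ ≠ 0 := by
  have e : ∀ {d}, Ok N d → (eps d : ℂ) ≠ 0 := fun o => left_ne_zero_of_mul_eq_one (Du.eps_sq o)
  have g : gs δ₁ ≠ 0 := fun k => I_ne_zero (by rw [← h.kp]; simp [kap, k])
  simp [cS, e h.ok, e h.ok1, g, NeZero.ne N]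

/-- the row `SHI` with its constant -/
theorem shix (h : Dual δ δ₁ ρ) {x : Cf N} (hx : IsS δ x) :
    S2 N (shi δ₁ ρ x) ∧ QE (shi δ₁ ρ x) fun j => cS N δ δ₁ * shc δ₁ ρ x j := by
  have := NeZero.mk (zero_lt_one.trans h.ok1.one).ne'
  obtain ⟨C, -, hC⟩ := shi_row N δ δ₁ ρ h
  have s : shi δ₁ ρ x = Sh (N * δ₁) (Sb.sd δ₁ ρ x 1) := by
    simpa using Sb.sl_eq (x := x) phi fta h 1
  exact ⟨(hC x hx).1, s ▸ Sb.qe sha phi fta g2.2.1 h hx⟩

/-- the characters of `δ` and `δ₁` match -/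
def Mt (N δ δ₁ : ℕ) : Prop := ∀ l : ℕ, l.Prime → ¬ l ∣ 2 * N * δ * δ₁ →
  J(l | δ) * J(-((δ : ℤ) * δ₁) | l) = J(l | δ₁)

/-- the Shimura lift of an eigenform -/
theorem eigx (du : Dual δ δ₁ ρ) (hJ : Mt N δ δ₁) (hG : RN N G a) {S : ℕ} (hS : S ≠ 0) {y : Cf N}
    (hy : IsS δ y) (he : Eig δ S a y) :
    shi δ₁ ρ y = (cS N δ δ₁ * y δ₁ (ρ⁻¹ * δ₁)) • G := by
  have := hG.pos
  have := du.ok.one
  have := du.ok1.one
  obtain ⟨s1, s2⟩ := shix du hy
  have te := she N δ δ₁ (S * (2 * N * δ * δ₁)) _ a y du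
    (fun l hl h1 => hJ l hl fun e => h1 (e.mul_left _)) (dvd_mul_left _ _)
    fun l hl h1 => he l hl fun e => h1 (e.mul_right _)
  obtain ⟨κ, hκ⟩ := smo N (S * (2 * N * δ * δ₁)) G a hG (by positivity) _ _ s1 s2
    (fun p hp h1 n => by
      have h3 := te p hp h1 n
      split_ifs at h3 ⊢ <;> linear_combination cS N δ δ₁ * h3)
  have e : shi δ₁ ρ y = κ • G := funext hκ
  rw [e] at s2 ⊢
  have := congrFun (P004N.H461.QE.unique s2 (P004N.H461.QE.smul hG.qe κ)) 1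
  congr 1
  simpa [shc, hG.one, jacobiSym.one_left] using this.symm

/-- the Shintani lift is a cusp form -/
theorem sn_s (du : Dual δ δ₁ ρ) (hG : S2 N G) : IsS δ (sn δ₁ ρ G) := (ws_row N δ δ₁ ρ G du hG).1

/-- the Shintani lift of a newform is an eigenform -/
theorem sn_eig (du : Dual δ δ₁ ρ) (hJ : Mt N δ δ₁) (hG : RN N G a) :
    Eig δ (2 * N * δ * δ₁) a (sn δ₁ ρ G) := by
  obtain ⟨hs, adj⟩ := ws_row N δ δ₁ ρ G du hG.s2
  obtain ⟨-, -, sa⟩ := pet2_all N hG.pos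
  have ok := du.ok
  intro l hl h1
  have h2 : ¬ l ∣ 2 * N * δ := fun e => h1 (e.mul_right _)
  have h3 : ¬ l ∣ N := fun e => h2 ((e.mul_left _).mul_right _)
  refine Wl.eq_of_B g2.2.1 ok (a l) hs (hecke N _ l ok hl h2 _ hs) fun y hy => ?_
  have hy' := hecke N _ l ok hl h2 y hy
  rw [B, ← self g2.2.1 N _ l ok hl h2 y _ hy hs, adj _ hy', B, adj _ hy]
  have q1 := (shix du hy').2
  rw [sht N _ δ₁ l _ y du hl h1 (hJ l hl h1)] at q1
  have q2 : QE ((a l : ℂ) • G) (Tc l fun n => (a n : ℂ)) := by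
    have : (Tc l fun n => (a n : ℂ)) = (a l : ℂ) • fun n => (a n : ℂ) :=
      funext fun n => hG.te l hl h3 n
    rw [this]
    exact P004N.H461.QE.smul hG.qe _
  have q3 : (fun j => cS N δ δ₁ * Tc l (shc δ₁ ρ y) j) =
      Tc l fun j => cS N δ δ₁ * shc δ₁ ρ y j := funext fun n => by
    simp only [Tc]
    split_ifs <;> ring
  rw [sa l _ G _ _ _ _ hl h3 (shix du hy).1 hG.s2 (shix du hy).2 hG.qe (q3 ▸ q1) q2]
  simpa using pet2_smul N 1 (a l) (shi δ₁ ρ y) G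

/-- the product with the Shintani lift reads off one coefficient -/
theorem sn_B (du : Dual δ δ₁ ρ) (hJ : Mt N δ δ₁) (hG : RN N G a) {S : ℕ} (hS : S ≠ 0) {y : Cf N}
    (hy : IsS δ y) (he : Eig δ S a y) :
    B y (sn δ₁ ρ G) = cS N δ δ₁ * y δ₁ (ρ⁻¹ * δ₁) * pet2 N G G := by
  rw [B, (ws_row N δ δ₁ ρ G du hG.s2).2 y hy, eigx du hJ hG hS hy he]
  simpa using pet2_smul N (cS N δ δ₁ * y δ₁ (ρ⁻¹ * δ₁)) 1 G G

/-- the coefficient of the Shintani lift -/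
theorem sn_co (du : Dual δ δ₁ ρ) (hG : S2 N G) (e : QE G fun n => a n) :
    sn δ₁ ρ G δ₁ (ρ⁻¹ * δ₁) = Complex.I * (√(N * δ₁ : ℕ) : ℝ) * (eps δ₁ * gs δ₁) *
      ∫ y in Set.Ioi (0 : ℝ), tw a δ₁ (Complex.I * y) := by
  rw [sn, ← mul_assoc, ZMod.mul_inv_of_unit ρ du.un, one_mul]
  exact wcx (NeZero.pos N) du.ok1.odd du.ok1.sq du.ok1.cop hG e
    (mul_pos (NeZero.pos N) du.ok1.odd.pos)

theorem pet2_ne (hG : RN N G a) : pet2 N G G ≠ 0 := fun e => by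
  have h4 := hG.qe
  rw [(pet2_all N hG.pos).2.1 G hG.s2 e] at h4
  simpa [hG.one] using P004N.H461.QE.zero_eq h4 1

/-- **an eigenform whose products read off the coefficient is the Shintani lift** -/
theorem keyx (du : Dual δ δ₁ ρ) (hJ : Mt N δ δ₁) (hG : RN N G a) {S : ℕ} (hS : S ≠ 0) {x : Cf N}
    (hx : IsS δ x) (he : Eig δ S a x) {t : ℂ}
    (h : ∀ y, IsS δ y → Eig δ (S * (2 * N * δ * δ₁)) a y → B y x = t * y δ₁ (ρ⁻¹ * δ₁)) :
    x = conj (t / (cS N δ δ₁ * pet2 N G G)) • sn δ₁ ρ G := by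
  have := hG.pos
  have := du.ok.one
  have := du.ok1.one
  have hs := sn_s du hG.s2
  set k := conj (t / (cS N δ δ₁ * pet2 N G G)) with hk
  have hz := Wl.isS_comb (-k) hs hx
  have ez : Eig δ (S * (2 * N * δ * δ₁)) a ((-k) • sn δ₁ ρ G + x) := fun l hl h1 => by
    funext n r
    have h2 := congrFun (congrFun (he l hl fun e => h1 (e.mul_right _)) n) r
    have h3 := congrFun (congrFun (sn_eig du hJ hG l hl fun e => h1 (e.mul_left _)) n) r
    simp only [TT, Pi.add_apply, Pi.smul_apply, smul_eq_mul] at h2 h3 ⊢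
    split_ifs at h2 h3 ⊢ <;> linear_combination h2 - k * h3
  have h1 : B ((-k) • sn δ₁ ρ G + x) ((-k) • sn δ₁ ρ G + x) = 0 := by
    have n := cS_ne du
    have n' := pet2_ne hG
    rw [B_add g2.2.1 du.ok (Wl.isS_smul _ hs) hx hz, B_smul, B_conj _ x, h _ hz ez,
      B_conj _ (sn δ₁ ρ G), sn_B du hJ hG (by positivity) hz ez, hk, ← map_neg, ← map_mul,
      ← map_add, map_eq_zero]
    field_simp
    ring
  have h2 := g2.2.1 N δ du.ok _ hz |>.2.2.2 h1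
  rw [_root_.neg_smul, neg_add_eq_zero] at h2
  exact h2.symm

end Vale.Agent.P014T.Gx
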